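import Vale.Agent.P287Z.O.H311.Tw
import Mathlib.Data.Fintype.Option

/-!
# Finite direct sums and extension closed classes (P287 port of P294-L, block B8)
-/

open CategoryTheory Limits Pretriangulated

universe v u

namespace Vale.Agent.P287Z.O.L.Tw

variable {K : Type u} [Category.{v} K] [Preadditive K] [HasZeroObject K]
    [HasShift K ℤ] [∀ n : ℤ, (shiftFunctor K n).Additive] [Pretriangulated K]

/-- a class of objects closed under isomorphisms, zero objects and extensions -/
structure Ext (I : K → Prop) : Prop where
  iso : ∀ X Y : K, (X ≅ Y) → I X → I Y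
  zero : ∀ X : K, IsZero X → I X
  ext : ∀ T ∈ distTriang K, I T.obj₁ → I T.obj₃ → I T.obj₂

theorem Ext.biprod {I : K → Prop} (hI : Ext I) {X Y : K} (hX : I X) (hY : I Y) : I (X ⊞ Y) :=
  hI.ext _ (binaryBiproductTriangle_distinguished X Y) hX hY

/-- splitting off one summand -/
noncomputable def optIso {J : Type} [Finite J] (f : Option J → K) :
    (f none ⊞ ⨁ fun j => f (some j)) ≅ ⨁ f where
  hom := biprod.desc (biproduct.ι f none) (biproduct.desc fun j => biproduct.ι f (some j))
  inv := biprod.lift (biproduct.π f none) (biproduct.lift fun j => biproduct.π f (some j))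
  hom_inv_id := by
    ext
    · simp
    · simp
    · simp
    · rename_i j k
      simp only [biprod.lift_snd, biprod.inr_desc_assoc, Category.assoc,
        biprod.inr_snd_assoc, biproduct.lift_π, biproduct.ι_desc_assoc,
        Category.comp_id]
      by_cases h : j = k
      · subst h
        rw [biproduct.ι_π_self, biproduct.ι_π_self]
      · rw [biproduct.ι_π_ne _ h, biproduct.ι_π_ne _ (fun h' => h (Option.some_injective _ h'))]
  inv_hom_id := by
    classical
    cases nonempty_fintype J
    rw [biprod.lift_desc, biproduct.lift_desc, ← biproduct.total, Fintype.sum_option]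

theorem Ext.biproduct {I : K → Prop} (hI : Ext I) {J : Type} [Finite J] (f : J → K)
    (hf : ∀ j, I (f j)) : I (⨁ f) := by
  refine Finite.induction_empty_option (P := fun J => ∀ (f : J → K), (∀ j, I (f j)) →
    ∀ [Finite J], I (⨁ f)) ?_ ?_ ?_ J f hf
  · intro α β e ih f hf _
    have : Finite α := Finite.of_equiv β e.symm
    have h1 := ih (fun x => f (e x)) fun j => hf _
    exact hI.iso _ _ (Limits.biproduct.whiskerEquiv e fun _ => Iso.refl _) h1
  · intro f hf _
    refine hI.zero _ ?_
    rw [IsZero.iff_id_eq_zero]
    exact biproduct.hom_ext _ _ fun j => j.elim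
  · intro α _ ih f hf _
    exact hI.iso _ _ (optIso f) (hI.biprod (hf none) (ih (fun j => f (some j)) fun j => hf _))

theorem Hull.isExt (A : K) : Ext (Hull A) :=
  ⟨fun _ _ e => .iso e, .zero, fun T hT => .ext T hT⟩

end Vale.Agent.P287Z.O.L.Tw
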