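import Vale.Agent.P287Z.O.H311.Hul

/-!
# Maps from `𝒪` in the homotopy category (P287 port of P294-L, block B8)
-/

set_option linter.unusedSectionVars false

open CategoryTheory Limits MvPolynomial Pretriangulated

universe v u

namespace Vale.Agent.P287Z.O.L

open V H409

theorem hg0_const {f : MvPolynomial (Fin 6) ℂ} (hf : Hg 0 f) : ∃ c : ℂ, f = C c := by
  refine ⟨f.coeff 0, ?_⟩
  ext m
  rw [coeff_C]
  split_ifs with h
  · rw [h]
  · by_contra h1
    have h2 := (hg_iff.1 hf) m (mem_support_iff.2 h1)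
    have h3 : m.degree = 0 := by omega
    rw [Finsupp.degree_eq_zero_iff] at h3
    exact h h3.symm

/-- the shift of a single complex -/
noncomputable def shSingle {C : Type u} [Category.{v} C] [Abelian C] (A : C) (n : ℤ) :
    ((HomotopyCategory.quotient C (ComplexShape.up ℤ)).obj
      ((HomologicalComplex.single C (ComplexShape.up ℤ) 0).obj A))⟦n⟧ ≅
      (HomotopyCategory.quotient C (ComplexShape.up ℤ)).obj
        ((HomologicalComplex.single C (ComplexShape.up ℤ) (-n)).obj A) :=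
  ((HomotopyCategory.singleFunctors C).shiftIso n (-n) 0 (by lia)).app A

section

variable {W : MvPolynomial (Fin 6) ℂ} {n : ℕ} [FrOK W]

theorem end_O1 (u : O1 W ⟶ O1 W) : ∃ c : ℂ, u = c • 𝟙 _ := by
  obtain ⟨M, hM, rfl⟩ := (matSt W (fun _ : Fin 1 => -2 * (0 : ℤ))
    (fun _ : Fin 1 => -2 * (0 : ℤ))).1 u
  have h1 : Hg 0 (M 0 0) := hM 0 0
  obtain ⟨c, hc⟩ := hg0_const h1
  refine ⟨c, ?_⟩
  have h2 : M = c • (1 : Matrix (Fin 1) (Fin 1) (MvPolynomial (Fin 6) ℂ)) := by
    ext1 i j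
    rw [Subsingleton.elim i 0, Subsingleton.elim j 0, hc, Matrix.smul_apply,
      Matrix.one_apply_eq, MvPolynomial.smul_eq_C_mul, mul_one]
  rw [← matA_one W HgM.one, ← matA_smul W c HgM.one (HgM.one.smul c)]
  exact matA_congr W _ _ h2

theorem exc_A0 : Tw.Exc (A0 W) where
  van := by
    intro n hn f
    rw [← cancel_mono (shSingle (O1 W) n).hom, zero_comp]
    obtain ⟨g, hg⟩ := (HomotopyCategory.quotient (GA W) (ComplexShape.up ℤ)).map_surjective
      (f ≫ (shSingle (O1 W) n).hom)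
    rw [← hg]
    have h0 : g = 0 := by
      refine HomologicalComplex.hom_ext _ _ fun i => ?_
      by_cases hi : i = 0
      · subst hi
        exact (HomologicalComplex.isZero_single_obj_X (ComplexShape.up ℤ) (-n) (O1 W) 0
          (by lia)).eq_of_tgt _ _
      · exact (HomologicalComplex.isZero_single_obj_X (ComplexShape.up ℤ) 0 (O1 W) i
          hi).eq_of_src _ _
    rw [h0, Functor.map_zero]
  one := by
    intro f
    obtain ⟨g, rfl⟩ := (HomotopyCategory.quotient (GA W) (ComplexShape.up ℤ)).map_surjective f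
    obtain ⟨u, rfl⟩ := (HomologicalComplex.single (GA W) (ComplexShape.up ℤ) 0).map_surjective g
    obtain ⟨c, rfl⟩ := end_O1 u
    refine ⟨c, ?_⟩
    have h1 : (HomologicalComplex.single (GA W) (ComplexShape.up ℤ) 0).map (c • 𝟙 (O1 W)) =
        c • 𝟙 _ := by
      refine HomologicalComplex.from_single_hom_ext ?_
      rw [HomologicalComplex.single_map_f_self, HomologicalComplex.smul_f_apply,
        HomologicalComplex.id_f, Linear.smul_comp, Linear.comp_smul, Category.id_comp,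
        Iso.hom_inv_id]
    rw [h1, Functor.map_smul, CategoryTheory.Functor.map_id]

/-- lifting along the differentials of `T` -/
theorem lift_TT (hW : Hg 6 W) (hW0 : W ≠ 0) (E : GMF W n) (k l r : ℤ) (h : k + 1 = l)
    (h' : l + 1 = r) (a : O1 W ⟶ TX E (fun _ => True) l)
    (ha : a ≫ Td E (fun _ => True) l r h' = 0) :
    ∃ u : O1 W ⟶ TX E (fun _ => True) k, u ≫ Td E (fun _ => True) k l h = a := by
  have hproj : Projective (O1 W) := projSt W hW _
  have hex := acySt (W := W) hW hW0 E k l r h h'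
  have h1 : (a : O1 W ⟶ (TT E).X l) ≫ (TT E).d l r = 0 :=
    (congrArg (fun z => a ≫ z) (T_d E (fun _ => True) l r h')).trans ha
  refine ⟨hex.liftFromProjective (P := O1 W) a h1, ?_⟩
  have h2 := hex.liftFromProjective_comp (P := O1 W) a h1
  refine Eq.trans ?_ h2
  exact congrArg (fun z => hex.liftFromProjective (P := O1 W) a h1 ≫ z)
    (T_d E (fun _ => True) k l h).symm

theorem assocTX {X Y Z T : GA W} (a : X ⟶ Y) (b : Y ⟶ Z) (c : Z ⟶ T) :
    (a ≫ b) ≫ c = a ≫ b ≫ c := Category.assoc _ _ _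

/-- a map to `T^k` lands in the generators of degree `≤ 0` -/
theorem jj_factor (E : GMF W n) (k : ℤ) (u : O1 W ⟶ TX E (fun _ => True) k) :
    (u ≫ jj E (fun _ => True) (· ≤ 2 * 0) k) ≫ jj E (· ≤ 2 * 0) (fun _ => True) k = u := by
  obtain ⟨M, hM, hMu⟩ := (matSt W (fun _ : Fin 1 => -2 * (0 : ℤ))
    (qsel E (fun _ => True) k)).1 u
  have hneg : ∀ i j, ¬ (E.p i - 3 * k ≤ 2 * 0) → M i j = 0 := by
    intro i j hi
    have h3 := hM i j
    rw [qsel_true] at h3
    exact hg_neg h3 (by linarith)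
  subst hMu
  have h5 : (matA W M hM ≫ (jj E (fun _ => True) (· ≤ 2 * 0) k :
      FrA W (qsel E (fun _ => True) k) ⟶ FrA W (qsel E (· ≤ 2 * 0) k))) =
      matA W _ (hM.mul (hgM_j E (fun _ => True) (· ≤ 2 * 0) k)) := matA_comp W _ _ _ _
  have h6 : matA W _ (hM.mul (hgM_j E (fun _ => True) (· ≤ 2 * 0) k)) ≫
      (jj E (· ≤ 2 * 0) (fun _ => True) k :
        FrA W (qsel E (· ≤ 2 * 0) k) ⟶ FrA W (qsel E (fun _ => True) k)) =
      matA W _ ((hM.mul (hgM_j E (fun _ => True) (· ≤ 2 * 0) k)).mul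
          (hgM_j E (· ≤ 2 * 0) (fun _ => True) k)) := matA_comp W _ _ _ _
  refine (congrArg (fun z => z ≫ (jj E (· ≤ 2 * 0) (fun _ => True) k :
        FrA W (qsel E (· ≤ 2 * 0) k) ⟶ FrA W (qsel E (fun _ => True) k))) h5).trans
        (h6.trans ?_)
  refine matA_congr W _ _ ?_
  rw [dmask_mul, dmask_mul]
  ext1 i j
  by_cases hi : E.p i - 3 * k ≤ 2 * 0
  · exact (if_pos ⟨trivial, hi⟩).trans (if_pos ⟨hi, trivial⟩)
  · exact (if_neg (fun h => hi h.2)).trans (hneg i j hi).symm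

theorem jj_mono (E : GMF W n) (l : ℤ) {X : GA W} (a b : X ⟶ TX E (· ≤ 2 * 0) l)
    (hab : a ≫ jj E (· ≤ 2 * 0) (fun _ => True) l = b ≫ jj E (· ≤ 2 * 0) (fun _ => True) l) :
    a = b := by
  have h6 : jj E (· ≤ 2 * 0) (fun _ => True) l ≫ jj E (fun _ => True) (· ≤ 2 * 0) l = 𝟙 _ :=
    (jj_jj E _ _ _ l fun x _ _ => trivial).trans (jj_self E _ l)
  rw [← Category.comp_id a, ← Category.comp_id b, ← h6, ← Category.assoc, hab, Category.assoc]

/-- lifting along the differentials of `T_{≤ 0}` -/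
theorem lift_TL (hW : Hg 6 W) (hW0 : W ≠ 0) (E : GMF W n) (k l r : ℤ) (h : k + 1 = l)
    (h' : l + 1 = r) (g : O1 W ⟶ TX E (· ≤ 2 * 0) l) (hg : g ≫ Td E (· ≤ 2 * 0) l r h' = 0) :
    ∃ u : O1 W ⟶ TX E (· ≤ 2 * 0) k, u ≫ Td E (· ≤ 2 * 0) k l h = g := by
  have hj : ∀ k l (h : k + 1 = l), Td E (· ≤ 2 * 0) k l h ≫ jj E (· ≤ 2 * 0) (fun _ => True) l =
      jj E (· ≤ 2 * 0) (fun _ => True) k ≫ Td E (fun _ => True) k l h := by
    intro k l h
    refine jj_Td E (· ≤ 2 * 0) (fun _ => True) k l h (fun x y h2 h3 _ => ?_)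
    simp only [iff_true]
    omega
  have h1 : (g ≫ jj E (· ≤ 2 * 0) (fun _ => True) l) ≫ Td E (fun _ => True) l r h' = 0 := by
    rw [Category.assoc, ← hj, ← Category.assoc, hg, zero_comp]
  obtain ⟨u, hu⟩ := lift_TT hW hW0 E k l r h h' _ h1
  refine ⟨u ≫ jj E (fun _ => True) (· ≤ 2 * 0) k, jj_mono E l _ _ ?_⟩
  rw [← hu, Category.assoc, hj, ← Category.assoc, jj_factor]

/-- maps from a single complex are null-homotopic if they lift -/
theorem null_of_lift {C : Type u} [Category.{v} C] [Abelian C] {A : C} {K : CochainComplex C ℤ}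
    {l : ℤ} (φ : (CochainComplex.singleFunctor C l).obj A ⟶ K)
    (u : A ⟶ K.X (l - 1)) (hu : u ≫ K.d (l - 1) l =
      (HomologicalComplex.singleObjXSelf (ComplexShape.up ℤ) l A).inv ≫ φ.f l) :
    Nonempty (Homotopy φ 0) := by
  refine ⟨(CochainComplex.HomComplex.Cochain.equivHomotopy φ 0).symm
    ⟨CochainComplex.HomComplex.Cochain.fromSingleMk u (by lia : l + (-1) = l - 1), ?_⟩⟩
  rw [CochainComplex.HomComplex.Cochain.δ_fromSingleMk u _ 0 l (by lia),
    CochainComplex.HomComplex.Cochain.ofHom_zero, add_zero]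
  apply (CochainComplex.HomComplex.Cochain.fromSingleEquiv (by lia : l + 0 = l)).injective
  rw [CochainComplex.HomComplex.Cochain.fromSingleEquiv_fromSingleMk, hu]
  change _ ≫ (CochainComplex.HomComplex.Cochain.ofHom φ).v l l _ = _
  rw [CochainComplex.HomComplex.Cochain.ofHom_v]
  rfl

/-- chain maps from `𝒪[-l]` to `T_{≤ 0}` are null-homotopic -/
theorem null_TL (hW : Hg 6 W) (hW0 : W ≠ 0) (E : GMF W n) (l : ℤ)
    (φ : (CochainComplex.singleFunctor (GA W) l).obj (O1 W) ⟶ TL E 0) :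
    Nonempty (Homotopy φ 0) := by
  let e := HomologicalComplex.singleObjXSelf (ComplexShape.up ℤ) l (O1 W)
  let g : O1 W ⟶ TX E (· ≤ 2 * 0) l := e.inv ≫ φ.f l
  have hg : g ≫ Td E (· ≤ 2 * 0) l (l + 1) rfl = 0 := by
    have h1 : φ.f l ≫ (TL E 0).d l (l + 1) = 0 := by
      have h2 := φ.comm l (l + 1)
      have h3 : ((CochainComplex.singleFunctor (GA W) l).obj (O1 W)).d l (l + 1) = 0 :=
        HomologicalComplex.single_obj_d _ _ _ _ _
      rw [h3, zero_comp] at h2
      exact h2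
    rw [T_d _ _ _ _ rfl] at h1
    refine (assocTX e.inv (φ.f l : _ ⟶ TX E (· ≤ 2 * 0) l) _).trans ?_
    exact (congrArg (fun z => e.inv ≫ z) h1).trans comp_zero
  obtain ⟨u, hu⟩ := lift_TL hW hW0 E (l - 1) l (l + 1) (by lia) rfl g hg
  refine null_of_lift φ u ?_
  rw [T_d _ _ _ _ (by lia)]
  exact hu

/-- no maps from shifts of `𝒪` to `T_{≤ 0}` in the homotopy category -/
theorem orth_TL (hW : Hg 6 W) (hW0 : W ≠ 0) (E : GMF W n) (m : ℤ)
    (f : (A0 W)⟦m⟧ ⟶ (HomotopyCategory.quotient (GA W) (ComplexShape.up ℤ)).obj (TL E 0)) :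
    f = 0 := by
  rw [← cancel_epi (shSingle (O1 W) m).inv, comp_zero]
  obtain ⟨φ, hφ⟩ := (HomotopyCategory.quotient (GA W) (ComplexShape.up ℤ)).map_surjective
    ((shSingle (O1 W) m).inv ≫ f)
  rw [← hφ, HomotopyCategory.quotient_map_eq_zero_iff]
  exact null_TL hW hW0 E (-m) φ

end

end Vale.Agent.P287Z.O.L
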