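import Vale.Agent.P287Z.O.H311.Phi

/-!
# The complex of generators of degree zero lies in the hull of `𝒪` (P287 port of P294-L, block B8)
-/

set_option linter.unusedSectionVars false

open CategoryTheory Limits MvPolynomial Pretriangulated

universe v u

namespace Vale.Agent.P287Z.O.L

open V H409

attribute [local instance] CategoryTheory.Abelian.hasFiniteBiproducts

section general

variable {C : Type u} [Category.{v} C] [Abelian C]

/-- bounded complexes are extensions of their terms -/
theorem ext_of_terms {I : HomotopyCategory C (ComplexShape.up ℤ) → Prop} (hI : Tw.Ext I) (b : ℤ)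
    (m : ℕ) : ∀ (X : CochainComplex C ℤ) (a : ℤ), X.IsStrictlyLE a → X.IsStrictlyGE b →
      a + 1 ≤ b + m → (∀ i, I ((HomotopyCategory.quotient C (ComplexShape.up ℤ)).obj
        ((HomologicalComplex.single C (ComplexShape.up ℤ) i).obj (X.X i)))) →
      I ((HomotopyCategory.quotient C (ComplexShape.up ℤ)).obj X) := by
  induction m with
  | zero =>
    intro X a hX hX' hab _
    refine hI.zero _ ?_
    have h1 : IsZero X := by
      rw [IsZero.iff_id_eq_zero]
      ext i
      by_cases hi : a < i
      · exact (X.isZero_of_isStrictlyLE a i hi).eq_of_src _ _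
      · exact (X.isZero_of_isStrictlyGE b i (by push_cast at hab; lia)).eq_of_tgt _ _
    exact (HomotopyCategory.quotient C (ComplexShape.up ℤ)).map_isZero h1
  | succ m ih =>
    intro X a hX hX' hab h
    obtain ⟨f, g, k, hT⟩ := topT X a
    refine hI.ext _ hT (h a) ?_
    refine ih (topQ X a) (a - 1) (topQ_isStrictlyLE X a _ rfl) ?_ (by push_cast at hab; lia) ?_
    · rw [CochainComplex.isStrictlyGE_iff]
      intro i hi
      by_cases hia : i = a
      · subst hia
        exact topQ_isZero X i
      · exact (X.isZero_of_isStrictlyGE b i hi).of_iso (topQ_X X a i hia)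
    · intro i
      by_cases hia : i = a
      · subst hia
        exact hI.zero _ (Functor.map_isZero _ (Functor.map_isZero _ (topQ_isZero X i)))
      · exact hI.iso _ _ ((HomotopyCategory.quotient C (ComplexShape.up ℤ)).mapIso
          ((HomologicalComplex.single C (ComplexShape.up ℤ) i).mapIso
            (topQ_X X a i hia).symm)) (h i)

/-- an object which is a direct sum -/
noncomputable def sumIso {J : Type} [Fintype J] [DecidableEq J] {X : C} (Y : J → C)
    (i : ∀ j, Y j ⟶ X) (p : ∀ j, X ⟶ Y j) (h1 : ∀ j, i j ≫ p j = 𝟙 _)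
    (h2 : ∀ j l, j ≠ l → i j ≫ p l = 0) (h3 : ∑ j, p j ≫ i j = 𝟙 X) : X ≅ ⨁ Y where
  hom := biproduct.lift p
  inv := biproduct.desc i
  hom_inv_id := by rw [biproduct.lift_desc, h3]
  inv_hom_id := by
    ext j l
    by_cases hjl : l = j
    · subst hjl
      simp [h1]
    · simp [h2 _ _ hjl, biproduct.ι_π_ne _ hjl]

end general

section

variable {W : MvPolynomial (Fin 6) ℂ} {n : ℕ} [FrOK W]

theorem matA_sum {ι κ τ : Type} [Fintype ι] [Fintype κ] {q : ι → ℤ} {q' : κ → ℤ} (s : Finset τ)
    (f : τ → Matrix κ ι (MvPolynomial (Fin 6) ℂ)) (hf : ∀ t, HgM q q' (f t))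
    (h : HgM q q' (∑ t ∈ s, f t)) :
    matA W (∑ t ∈ s, f t) h = ∑ t ∈ s, matA W (f t) (hf t) := by
  classical
  induction s using Finset.induction_on with
  | empty =>
    exact matA_eq_zero W _ _ fun i j => by simp
  | insert t s ht ih =>
    have h1 : HgM q q' (∑ t ∈ s, f t) := fun i j => by
      rw [Matrix.sum_apply]
      exact hga_sum s fun t _ => hf t i j
    have h2 : ∑ t ∈ insert t s, matA W (f t) (hf t) =
        matA W (f t + ∑ t ∈ s, f t) ((hf t).add h1) := by
      rw [Finset.sum_insert ht, ← ih h1, ← matA_add W (hf t) h1 ((hf t).add h1)]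
    rw [h2]
    exact matA_congr W _ _ (Finset.sum_insert ht)

/-- the columns -/
noncomputable def colM (i : Fin n) : Matrix (Fin n) (Fin 1) (MvPolynomial (Fin 6) ℂ) :=
  fun a _ => if a = i then 1 else 0

/-- the rows -/
noncomputable def rowM (i : Fin n) : Matrix (Fin 1) (Fin n) (MvPolynomial (Fin 6) ℂ) :=
  fun _ a => if a = i then 1 else 0

theorem hg_colM (q : Fin n → ℤ) (i : Fin n) : HgM (fun _ : Fin 1 => q i) q (colM i) := by
  intro a b
  unfold colM
  split_ifs with h
  · rw [h, sub_self]
    exact hga_one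
  · exact hga_zero _

theorem hg_rowM (q : Fin n → ℤ) (i : Fin n) : HgM q (fun _ : Fin 1 => q i) (rowM i) := by
  intro a b
  unfold rowM
  split_ifs with h
  · rw [h, sub_self]
    exact hga_one
  · exact hga_zero _

/-- free modules are direct sums -/
noncomputable def frSum (q : Fin n → ℤ) : FrA W q ≅ ⨁ fun i => FrA W (fun _ : Fin 1 => q i) :=
  sumIso _ (fun i => matA W (colM i) (hg_colM q i)) (fun i => matA W (rowM i) (hg_rowM q i))
    (fun i => by
      refine (matA_comp W _ _ _ _).trans (Eq.trans (matA_congr W _ HgM.one ?_)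
        (matA_one W HgM.one))
      ext1 a b
      rw [Matrix.mul_apply, Finset.sum_eq_single i]
      · rw [Subsingleton.elim a b, Matrix.one_apply_eq]
        unfold colM rowM
        simp
      · intro t _ ht
        unfold colM rowM
        simp [ht]
      · intro h
        exact absurd (Finset.mem_univ i) h)
    (fun i j hij => by
      refine (matA_comp W _ _ _ _).trans (matA_eq_zero W _ _ fun a b => ?_)
      rw [Matrix.mul_apply, Finset.sum_eq_zero]
      · exact dvd_zero _
      · intro t _
        unfold colM rowM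
        by_cases ht : t = i
        · subst ht
          simp [hij]
        · simp [ht])
    (by
      have h1 : ∀ i : Fin n, matA W (rowM i) (hg_rowM q i) ≫ matA W (colM i) (hg_colM q i) =
          matA W (colM i * rowM i) ((hg_rowM q i).mul (hg_colM q i)) :=
        fun i => matA_comp W _ _ _ _
      rw [Finset.sum_congr rfl fun i _ => h1 i]
      have h2 : (∑ i : Fin n, colM i * rowM i : Matrix (Fin n) (Fin n) (MvPolynomial (Fin 6) ℂ)) =
          1 := by
        ext1 a b
        rw [Matrix.sum_apply, Finset.sum_eq_single a]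
        · rw [Matrix.mul_apply, Fin.sum_univ_one, Matrix.one_apply]
          unfold colM rowM
          simp [eq_comm]
        · intro t _ ht
          rw [Matrix.mul_apply, Fin.sum_univ_one]
          unfold colM rowM
          simp [ht.symm]
        · intro h
          exact absurd (Finset.mem_univ a) h
      have h3 : HgM q q (∑ i : Fin n, colM i * rowM i) := by
        rw [h2]
        exact HgM.one
      rw [← matA_sum Finset.univ (fun i => colM i * rowM i)
        (fun i => (hg_rowM q i).mul (hg_colM q i)) h3]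
      exact (matA_congr W _ HgM.one h2).trans (matA_one W HgM.one))

/-- free modules without generators -/
theorem frA_isZero {ι : Type} [Fintype ι] (q : ι → ℤ) (h : ∀ i, ¬ Even (q i)) :
    IsZero (FrA W q) := by
  classical
  rw [IsZero.iff_id_eq_zero]
  have h1 : matA W (1 : Matrix ι ι (MvPolynomial (Fin 6) ℂ)) HgM.one = matA W 0 HgM.zero :=
    ((matSt W q q).2 _ _ _ _).2 fun i j hj => absurd hj (h j)
  rw [matA_one W HgM.one] at h1
  refine h1.trans (matA_eq_zero W _ _ fun i j => by simp)

variable (W) in
/-- the module `A` -/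
noncomputable abbrev O1 : GA W := FrA W (fun _ : Fin 1 => -2 * (0 : ℤ))

variable (W) in
/-- `A` in degree `0` in the homotopy category -/
noncomputable abbrev A0 : HomotopyCategory (GA W) (ComplexShape.up ℤ) :=
  (HomotopyCategory.quotient (GA W) (ComplexShape.up ℤ)).obj
    ((HomologicalComplex.single (GA W) (ComplexShape.up ℤ) 0).obj (O1 W))

theorem hull_single {q : Fin n → ℤ} (h : ∀ i, q i = 0 ∨ q i = 1) (k : ℤ) :
    Tw.Hull (A0 W) ((HomotopyCategory.quotient (GA W) (ComplexShape.up ℤ)).obj
      ((HomologicalComplex.single (GA W) (ComplexShape.up ℤ) k).obj (FrA W q))) := by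
  let S : GA W ⥤ HomotopyCategory (GA W) (ComplexShape.up ℤ) :=
    HomologicalComplex.single (GA W) (ComplexShape.up ℤ) k ⋙
      HomotopyCategory.quotient (GA W) (ComplexShape.up ℤ)
  have h1 : ∀ i, Tw.Hull (A0 W) (S.obj (FrA W (fun _ : Fin 1 => q i))) := by
    intro i
    rcases h i with h0 | h0
    · rw [h0]
      exact .iso (singleIso (O1 W) k) (.base (-k))
    · rw [h0]
      exact .zero _ (Functor.map_isZero S (frA_isZero _ fun _ => Int.not_even_one))
  exact .iso (S.mapIso (frSum q) ≪≫ S.mapBiproduct _).symm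
    ((Tw.Hull.isExt (A0 W)).biproduct _ h1)

/-- bounds for the complex `T_{= 0}` -/
theorem TE_le (E : GMF W n) : (TE E).IsStrictlyLE (∑ i, |E.p i|) := by
  rw [CochainComplex.isStrictlyLE_iff]
  intro k hk
  refine frA_isZero _ fun i hi => ?_
  have h1 := even_qsel E (· = 0) k i hi
  have h2 : |E.p i| ≤ ∑ i, |E.p i| :=
    Finset.single_le_sum (f := fun i => |E.p i|) (fun i _ => abs_nonneg _) (Finset.mem_univ i)
  have h3 := le_abs_self (E.p i)
  have h4 := abs_nonneg (E.p i)
  omega

theorem TE_ge (E : GMF W n) : (TE E).IsStrictlyGE (-∑ i, |E.p i|) := by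
  rw [CochainComplex.isStrictlyGE_iff]
  intro k hk
  refine frA_isZero _ fun i hi => ?_
  have h1 := even_qsel E (· = 0) k i hi
  have h2 : |E.p i| ≤ ∑ i, |E.p i| :=
    Finset.single_le_sum (f := fun i => |E.p i|) (fun i _ => abs_nonneg _) (Finset.mem_univ i)
  have h3 := neg_abs_le (E.p i)
  have h4 := abs_nonneg (E.p i)
  omega

theorem hull_TE (E : GMF W n) : Tw.Hull (A0 W)
    ((HomotopyCategory.quotient (GA W) (ComplexShape.up ℤ)).obj (TE E)) := by
  refine ext_of_terms (Tw.Hull.isExt (A0 W)) (-∑ i, |E.p i|) ((2 * (∑ i, |E.p i|) + 1).toNat)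
    (TE E) (∑ i, |E.p i|) (TE_le E) (TE_ge E) ?_ ?_
  · have h1 : 0 ≤ ∑ i, |E.p i| := Finset.sum_nonneg fun i _ => abs_nonneg _
    rw [Int.toNat_of_nonneg (by linarith)]
    linarith
  · intro k
    refine hull_single (q := qsel E (· = 0) k) (fun i => ?_) k
    unfold qsel
    split_ifs with h
    · exact Or.inl h
    · exact Or.inr rfl

end

end Vale.Agent.P287Z.O.L
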