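import Vale.Agent.P287Z.O.H311.Bip
import Vale.Agent.P287Z.O.H409.FF
import Vale.Agent.P287Z.O.L.B2
import Vale.Agent.P287Z.O.L.TwT

/-!
# The evaluation triangle (P287 port of P294-L, block B8)
-/

set_option linter.unusedSectionVars false

open CategoryTheory Limits MvPolynomial Pretriangulated

namespace Vale.Agent.P287Z.O.L

open V

section

variable {𝒟 : Type 1} [Category.{1} 𝒟] [Preadditive 𝒟] [Linear ℂ 𝒟] [HasZeroObject 𝒟]
    [HasShift 𝒟 ℤ] [∀ n : ℤ, (shiftFunctor 𝒟 n).Additive] [Pretriangulated 𝒟]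

theorem TriCl.isExt {I : 𝒟 → Prop} (hI : TriCl I) : Tw.Ext I :=
  ⟨hI.iso, hI.zero, hI.ext₂⟩

/-- the triangle of a twist -/
theorem IsTwist.tri {I : 𝒟 → Prop} (hI : TriCl I) {O E Y : 𝒟} (hO : I O) (h : IsTwist O E Y) :
    ∃ (A : 𝒟) (f : A ⟶ E) (g : E ⟶ Y) (k : Y ⟶ A⟦(1 : ℤ)⟧), I A ∧
      Triangle.mk f g k ∈ distTriang 𝒟 := by
  obtain ⟨s, r, b, hs, g, k, hT⟩ := h
  exact ⟨_, _, g, k, hI.isExt.biproduct _ fun x => hI.shift _ _ hO, hT⟩

end

/-! ## masks of the identity -/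

section mask

variable {ι : Type} {n : ℕ}

theorem dmask_mul (R Q : Fin n → Prop) [DecidablePred R] [DecidablePred Q]
    (M : Matrix (Fin n) ι (MvPolynomial (Fin 6) ℂ)) :
    mask R Q (1 : Matrix (Fin n) (Fin n) (MvPolynomial (Fin 6) ℂ)) * M =
      fun i j => if R i ∧ Q i then M i j else 0 := by
  ext1 i j
  rw [Matrix.mul_apply, Finset.sum_eq_single i]
  · unfold mask
    rw [Matrix.one_apply_eq]
    split_ifs <;> simp
  · intro t _ ht
    unfold mask
    rw [Matrix.one_apply_ne ht.symm, ite_self, zero_mul]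
  · intro h
    exact absurd (Finset.mem_univ i) h

theorem mul_dmask (R Q : Fin n → Prop) [DecidablePred R] [DecidablePred Q]
    (M : Matrix ι (Fin n) (MvPolynomial (Fin 6) ℂ)) :
    M * mask R Q (1 : Matrix (Fin n) (Fin n) (MvPolynomial (Fin 6) ℂ)) =
      fun i j => if R j ∧ Q j then M i j else 0 := by
  ext1 i j
  rw [Matrix.mul_apply, Finset.sum_eq_single j]
  · unfold mask
    rw [Matrix.one_apply_eq]
    split_ifs <;> simp
  · intro t _ ht
    unfold mask
    rw [Matrix.one_apply_ne ht, ite_self, mul_zero]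
  · intro h
    exact absurd (Finset.mem_univ j) h

end mask

section T

variable {W : MvPolynomial (Fin 6) ℂ} {n m : ℕ}

theorem hgM_j (E : GMF W n) (P Q : ℤ → Prop) [DecidablePred P] [DecidablePred Q] (k : ℤ) :
    HgM (qsel E P k) (qsel E Q k)
      (mask (fun i => Q (E.p i - 3 * k)) (fun j => P (E.p j - 3 * k)) 1) := by
  intro i j
  unfold mask qsel
  by_cases hij : i = j
  · subst hij
    split_ifs with h1 h2 h3 h4
    · rw [Matrix.one_apply_eq, sub_self]
      exact isWeightedHomogeneous_one _ _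
    all_goals first | exact isWeightedHomogeneous_zero _ _ _ | (exfalso; tauto)
  · rw [Matrix.one_apply_ne hij, ite_self]
    exact isWeightedHomogeneous_zero _ _ _

variable [FrOK W]

/-- change of the selection -/
noncomputable def jj (E : GMF W n) (P Q : ℤ → Prop) [DecidablePred P] [DecidablePred Q] (k : ℤ) :
    TX E P k ⟶ TX E Q k := matA W _ (hgM_j E P Q k)

theorem even_qsel (E : GMF W n) (P : ℤ → Prop) [DecidablePred P] (k : ℤ) (i : Fin n)
    (h : Even (qsel E P k i)) : P (E.p i - 3 * k) := by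
  unfold qsel at h
  by_contra h'
  rw [if_neg h'] at h
  exact Int.not_even_one h

theorem even_qsel' (E : GMF W n) (P : ℤ → Prop) [DecidablePred P] (k : ℤ) (i : Fin n)
    (h : Even (qsel E P k i)) : Even (E.p i - 3 * k) := by
  have h1 := even_qsel E P k i h
  unfold qsel at h
  rwa [if_pos h1] at h

theorem jj_jj (E : GMF W n) (P Q R : ℤ → Prop) [DecidablePred P] [DecidablePred Q]
    [DecidablePred R] (k : ℤ) (h : ∀ x, P x → R x → Q x) :
    jj E P Q k ≫ jj E Q R k = jj E P R k := by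
  refine (matA_comp W _ _ _ _).trans ?_
  refine ((matSt W _ _).2 _ _ _ _).2 fun i j _ => ?_
  rw [dmask_mul]
  unfold mask
  by_cases hij : i = j
  · subst hij
    by_cases h1 : P (E.p i - 3 * k) <;> by_cases h2 : R (E.p i - 3 * k) <;>
      by_cases h3 : Q (E.p i - 3 * k) <;> simp [h1, h2, h3]
    exact absurd (h _ h1 h2) h3
  · simp [Matrix.one_apply_ne hij]

theorem jj_self (E : GMF W n) (P : ℤ → Prop) [DecidablePred P] (k : ℤ) :
    jj E P P k = 𝟙 _ := by
  have h1 := matA_one W (q := qsel E P k) (HgM.one (q := qsel E P k))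
  refine Eq.trans ?_ h1
  refine ((matSt W _ _).2 _ _ _ _).2 fun i j hj => ?_
  have h2 := even_qsel E P k j hj
  unfold mask
  by_cases hij : i = j
  · subst hij
    simp [h2]
  · simp [Matrix.one_apply_ne hij]

theorem jj_zero (E : GMF W n) (P R : ℤ → Prop) [DecidablePred P]
    [DecidablePred R] (k : ℤ) (h : ∀ x, P x → R x → False) :
    jj E P R k = 0 := by
  refine matA_eq_zero W _ _ fun i j => ?_
  unfold mask
  by_cases hij : i = j
  · subst hij
    by_cases h1 : P (E.p i - 3 * k) <;> by_cases h2 : R (E.p i - 3 * k)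
    · exact absurd (h _ h1 h2) id
    all_goals simp [h1, h2]
  · simp [Matrix.one_apply_ne hij]

/-- entries of the differential in nonpositive direction vanish -/
theorem d_eq_zero (E : GMF W n) (k l : ℤ) (h : k + 1 = l) (i j : Fin n)
    (hij : E.p j - 3 * k < E.p i - 3 * l) : E.d i j = 0 :=
  hg_neg (E.deg i j) (by rw [← h] at hij; linarith)

theorem jj_Td (E : GMF W n) (P Q : ℤ → Prop) [DecidablePred P] [DecidablePred Q] (k l : ℤ)
    (h : k + 1 = l) (hPQ : ∀ x y, y ≤ x → P x → Q y → (P y ↔ Q x)) :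
    Td E P k l h ≫ jj E P Q l = jj E P Q k ≫ Td E Q k l h := by
  refine (matA_comp W _ _ _ _).trans (Eq.trans ?_ (matA_comp W _ _ _ _).symm)
  refine matA_congr W _ _ ?_
  rw [dmask_mul, mul_dmask]
  ext1 i j
  unfold mask
  by_cases hx : E.p j - 3 * k < E.p i - 3 * l
  · rw [d_eq_zero E k l h i j hx]
    simp
  · have h1 := hPQ _ _ (not_lt.1 hx)
    by_cases hP : P (E.p j - 3 * k) <;> by_cases hQ : Q (E.p i - 3 * l)
    · have h2 := h1 hP hQ
      by_cases h3 : P (E.p i - 3 * l)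
      · simp [hP, hQ, h3, h2.1 h3]
      · have h4 : ¬ Q (E.p j - 3 * k) := fun h4 => h3 (h2.2 h4)
        simp [hP, hQ, h3, h4]
    all_goals simp [hP, hQ]

/-- `d² = 0` for an order convex selection -/
theorem Td_Td' (E : GMF W n) (P : ℤ → Prop) [DecidablePred P]
    (hP : ∀ x y z, z ≤ y → y ≤ x → P x → P z → P y) (k l r : ℤ) (h : k + 1 = l)
    (h' : l + 1 = r) : Td E P k l h ≫ Td E P l r h' = 0 := by
  refine (matA_comp W _ _ _ _).trans (matA_eq_zero W _ _ fun i j => ?_)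
  have h1 : (mask (fun i => P (E.p i - 3 * r)) (fun j => P (E.p j - 3 * l)) E.d *
      mask (fun i => P (E.p i - 3 * l)) (fun j => P (E.p j - 3 * k)) E.d) i j =
      if P (E.p i - 3 * r) ∧ P (E.p j - 3 * k) then (E.d * E.d) i j else 0 := by
    rw [Matrix.mul_apply]
    unfold mask
    split_ifs with h0
    · rw [Matrix.mul_apply]
      refine Finset.sum_congr rfl fun t _ => ?_
      by_cases ht : P (E.p t - 3 * l)
      · rw [if_pos ⟨h0.1, ht⟩, if_pos ⟨ht, h0.2⟩]
      · rw [if_neg (fun h' => ht h'.2), zero_mul]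
        by_cases h2 : E.p j - 3 * k < E.p t - 3 * l
        · rw [d_eq_zero E k l h t j h2, mul_zero]
        · by_cases h3 : E.p t - 3 * l < E.p i - 3 * r
          · rw [d_eq_zero E l r h' i t h3, zero_mul]
          · exact absurd (hP _ _ _ (not_lt.1 h3) (not_lt.1 h2) h0.2 h0.1) ht
    · refine Finset.sum_eq_zero fun t _ => ?_
      by_cases hi : P (E.p i - 3 * r)
      · have hj : ¬ P (E.p j - 3 * k) := fun h' => h0 ⟨hi, h'⟩
        exact mul_eq_zero_of_right _ (if_neg fun h' => hj h'.2)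
      · exact mul_eq_zero_of_left (if_neg fun h' => hi h'.1) _
  rw [h1]
  split_ifs
  · rw [E.sq, Matrix.smul_apply, smul_eq_mul]
    exact dvd_mul_right _ _
  · exact dvd_zero _

/-- the complex of the generators of degree exactly `0` -/
noncomputable def TE (E : GMF W n) : CochainComplex (GA W) ℤ where
  X := TX E (· = 0)
  d k l := if h : k + 1 = l then Td E (· = 0) k l h else 0
  shape k l h := dif_neg h
  d_comp_d' k l r h h' := by
    rw [dif_pos (show k + 1 = l from h), dif_pos (show l + 1 = r from h'), Td_Td']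
    intro x y z h1 h2 h3 h4
    omega

theorem TE_d (E : GMF W n) (k l : ℤ) (h : k + 1 = l) :
    (TE E).d k l = Td E (· = 0) k l h := dif_pos h

/-- `T_{≤ -1}(E) → T_{≤ 0}(E)` -/
noncomputable def inTE (E : GMF W n) : TL E (-1) ⟶ TL E 0 where
  f k := (jj E (· ≤ 2 * (-1)) (· ≤ 2 * 0) k : TX E _ k ⟶ TX E _ k)
  comm' k l h := by
    have h1 : k + 1 = l := h
    rw [T_d _ _ _ _ h1, T_d _ _ _ _ h1]
    exact (jj_Td E _ _ k l h1 fun x y h2 h3 h4 => by
      constructor <;> intro <;> omega).symm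

/-- `T_{≤ 0}(E) → T_{= 0}(E)` -/
noncomputable def prTE (E : GMF W n) : TL E 0 ⟶ TE E where
  f k := (jj E (· ≤ 2 * 0) (· = 0) k : TX E _ k ⟶ TX E _ k)
  comm' k l h := by
    have h1 : k + 1 = l := h
    rw [T_d _ _ _ _ h1, TE_d _ _ _ h1]
    exact (jj_Td E _ _ k l h1 fun x y h2 h3 h4 => by
      constructor <;> intro <;> omega).symm

theorem inTE_prTE (E : GMF W n) : inTE E ≫ prTE E = 0 := by
  ext1 k
  refine (jj_jj E _ _ _ k fun x h1 h2 => by omega).trans ?_
  exact jj_zero E _ _ k fun x h1 h2 => by omega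

theorem jj_id (E : GMF W n) (k : ℤ) :
    jj E (· ≤ 2 * 0) (· ≤ 2 * (-1)) k ≫ jj E (· ≤ 2 * (-1)) (· ≤ 2 * 0) k +
      jj E (· ≤ 2 * 0) (· = 0) k ≫ jj E (· = 0) (· ≤ 2 * 0) k = 𝟙 _ := by
  have h1 := matA_one W (q := qsel E (· ≤ 2 * 0) k) (HgM.one (q := qsel E (· ≤ 2 * 0) k))
  refine Eq.trans ?_ h1
  have h2 : ∀ (R : ℤ → Prop) [DecidablePred R], jj E (· ≤ 2 * 0) R k ≫ jj E R (· ≤ 2 * 0) k =
      matA W _ ((hgM_j E (· ≤ 2 * 0) R k).mul (hgM_j E R (· ≤ 2 * 0) k)) :=
    fun R _ => matA_comp W _ _ _ _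
  rw [h2, h2]
  refine Eq.trans (matA_add W _ _ (((hgM_j E (· ≤ 2 * 0) (· ≤ 2 * (-1)) k).mul
    (hgM_j E (· ≤ 2 * (-1)) (· ≤ 2 * 0) k)).add ((hgM_j E (· ≤ 2 * 0) (· = 0) k).mul
      (hgM_j E (· = 0) (· ≤ 2 * 0) k)))).symm ?_
  refine ((matSt W _ _).2 _ _ _ _).2 fun i j hj => ?_
  obtain ⟨t, ht⟩ := even_qsel' E _ k j hj
  have h3 := even_qsel E _ k j hj
  rw [dmask_mul, dmask_mul]
  change W ∣ ((if E.p i - 3 * k ≤ 2 * 0 ∧ E.p i - 3 * k ≤ 2 * (-1) then _ else 0) +
    (if E.p i - 3 * k ≤ 2 * 0 ∧ E.p i - 3 * k = 0 then _ else 0)) - _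
  unfold mask
  by_cases hij : i = j
  · subst hij
    by_cases h0 : E.p i - 3 * k = 0
    · simp [h0]
    · have h4 : E.p i - 3 * k ≤ 2 * (-1) := by omega
      have h5 : E.p i - 3 * k ≤ 2 * 0 := by omega
      simp only [h0, h4, h5, and_self, if_true, false_and, if_false, and_false,
        Matrix.one_apply_eq, add_zero, sub_self, dvd_zero]
  · simp [Matrix.one_apply_ne hij]

/-- the short exact sequence -/
noncomputable def sesTE (E : GMF W n) : ShortComplex (CochainComplex (GA W) ℤ) :=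
  ShortComplex.mk (inTE E) (prTE E) (inTE_prTE E)

/-- it splits degreewise -/
noncomputable def splitTE (E : GMF W n) (k : ℤ) :
    ((sesTE E).map (HomologicalComplex.eval (GA W) (ComplexShape.up ℤ) k)).Splitting where
  r := (jj E (· ≤ 2 * 0) (· ≤ 2 * (-1)) k : TX E _ k ⟶ TX E _ k)
  s := (jj E (· = 0) (· ≤ 2 * 0) k : TX E _ k ⟶ TX E _ k)
  f_r := (jj_jj E _ _ _ k fun x h1 h2 => by omega).trans (jj_self E _ k)
  s_g := (jj_jj E _ _ _ k fun x h1 h2 => by omega).trans (jj_self E _ k)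
  id := jj_id E k

end T

end Vale.Agent.P287Z.O.L
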