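import Vale.Agent.P287Z.O.H311.Exc
import Vale.Agent.P287Z.O.H409.Term
import Vale.Agent.P287Z.O.L.Bnd

/-!
# The evaluation triangle (P287 port of P294-L, block B8): `PhiSt`
-/

set_option linter.unusedSectionVars false

open CategoryTheory Limits MvPolynomial Pretriangulated

namespace Vale.Agent.P287Z.O.L

open V H409

section

variable {W : MvPolynomial (Fin 6) ℂ} {n : ℕ} [FrOK W]

/-- `F(E(1))` is a twist in the homotopy category -/
theorem twist_K (hW : Hg 6 W) (hW0 : W ≠ 0) (E : GMF W n) :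
    IsTwist (A0 W) ((HomotopyCategory.quotient (GA W) (ComplexShape.up ℤ)).obj (TL E (-1)))
      ((HomotopyCategory.quotient (GA W) (ComplexShape.up ℤ)).obj (TL E 0)) := by
  obtain ⟨h, hT⟩ := dist_of_split (sesTE E) (splitTE E)
  exact Tw.IsTwist.of_hull exc_A0 (inv_rot_of_distTriang _ hT) ((hull_TE E).shift (-1))
    (orth_TL hW hW0 E)

variable [(tors W).IsSerreClass]

variable (W) in
/-- the functor from the homotopy category of graded modules to the derived category of `Coh X` -/
noncomputable abbrev qF : HomotopyCategory (GA W) (ComplexShape.up ℤ) ⥤ DerivedCategory (Coh W) :=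
  (piA W).mapHomotopyCategory (ComplexShape.up ℤ) ⋙ DerivedCategory.Qh

theorem bij_of_iso {A B : Type*} [Category A] [Category B] (π : A ⥤ B) {X X' Y : A}
    (e : X' ≅ X) (h : Function.Bijective (fun f : X ⟶ Y => π.map f)) :
    Function.Bijective (fun f : X' ⟶ Y => π.map f) := by
  constructor
  · intro f g hfg
    have h2 : π.map (e.inv ≫ f) = π.map (e.inv ≫ g) := by
      rw [Functor.map_comp, Functor.map_comp]
      exact congrArg (fun z => π.map e.inv ≫ z) hfg
    exact (cancel_epi e.inv).1 (h.1 h2)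
  · intro g
    obtain ⟨f, hf⟩ := h.2 (π.map e.inv ≫ g)
    refine ⟨e.hom ≫ f, ?_⟩
    change π.map (e.hom ≫ f) = g
    change π.map f = _ at hf
    rw [Functor.map_comp, hf, ← Category.assoc, ← Functor.map_comp, e.hom_inv_id,
      CategoryTheory.Functor.map_id, Category.id_comp]

/-- maps from shifts of `𝒪` to `T_{≤ -1}` in the homotopy category and in the derived category -/
theorem bij_O (hH : HomSt W) (hE : ExtSt W) (E : GMF W n) (m : ℤ) :
    Function.Bijective (fun f : (A0 W)⟦m⟧ ⟶
      (HomotopyCategory.quotient (GA W) (ComplexShape.up ℤ)).obj (TL E (-1)) =>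
        (qF W).map f) := by
  have hsep : ∀ j : ℤ, Sep (fun _ : Fin 1 => -2 * (0 : ℤ)) (qsel E (· ≤ 2 * (-1)) j) := by
    intro j a b _ hb
    have h1 : E.p b - 3 * j ≤ 2 * (-1) := even_qsel E (· ≤ 2 * (-1)) j b hb
    have h2 : qsel E (· ≤ 2 * (-1)) j b = E.p b - 3 * j := if_pos h1
    rw [h2]
    linarith
  have hX : CochainComplex.IsStrictlyLE
      ((HomologicalComplex.single (GA W) (ComplexShape.up ℤ) 0).obj (O1 W)) 0 := by
    rw [CochainComplex.isStrictlyLE_iff]
    exact fun i hi => HomologicalComplex.isZero_single_obj_X _ _ _ _ (by lia)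
  have hmain : ∀ k : ℤ, Inj (qF W) (A0 W)
      (((HomotopyCategory.quotient (GA W) (ComplexShape.up ℤ)).obj (TL E (-1)))⟦k⟧) ∧
      Sur (qF W) (A0 W)
      (((HomotopyCategory.quotient (GA W) (ComplexShape.up ℤ)).obj (TL E (-1)))⟦k⟧) := by
    refine ffπ (piA W) ((HomologicalComplex.single (GA W) (ComplexShape.up ℤ) 0).obj (O1 W))
      (TL E (-1)) 0 _ hX (TL_ge E (-1)) ?_ ?_
    · intro i j
      by_cases hi : i = 0
      · subst hi
        exact bij_of_iso (piA W) (HomologicalComplex.singleObjXSelf (ComplexShape.up ℤ) 0 (O1 W))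
          (Y := (TL E (-1)).X j) (hH _ _ (hsep j))
      · have h0 := HomologicalComplex.isZero_single_obj_X (ComplexShape.up ℤ) 0 (O1 W) i hi
        exact ⟨fun f g _ => h0.eq_of_src _ _,
          fun g => ⟨0, ((piA W).map_isZero h0).eq_of_src _ _⟩⟩
    · intro i j k hk f
      by_cases hi : i = 0
      · subst hi
        refine van_iso (C := Coh W) ((piA W).mapIso
          (HomologicalComplex.singleObjXSelf (ComplexShape.up ℤ) 0 (O1 W))) (Iso.refl _) ?_ k hk f
        exact hE _ _ (hsep j)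
      · have h0 := HomologicalComplex.isZero_single_obj_X (ComplexShape.up ℤ) 0 (O1 W) i hi
        exact (((DerivedCategory.singleFunctor (Coh W) 0).map_isZero
          ((piA W).map_isZero h0))).eq_of_src _ _
  exact (Inj.shiftl (hmain (-m)).1).bij (Sur.shiftl (hmain (-m)).2)

/-- comparison with `QPi` -/
noncomputable def qFiso (X : CochainComplex (GA W) ℤ) :
    (qF W).obj ((HomotopyCategory.quotient (GA W) (ComplexShape.up ℤ)).obj X) ≅
      (QPi W).obj X :=
  (DerivedCategory.quotientCompQhIso (Coh W)).app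
    (((piA W).mapHomologicalComplex (ComplexShape.up ℤ)).obj X)

/-- comparison with `𝒪` -/
noncomputable def qFO : (qF W).obj (A0 W) ≅ OD W 0 :=
  qFiso _ ≪≫ DerivedCategory.Q.mapIso
    ((HomologicalComplex.singleMapHomologicalComplex (piA W) (ComplexShape.up ℤ) 0).app (O1 W)) ≪≫
    ((DerivedCategory.singleFunctorIsoCompQ (Coh W) 0).app ((piA W).obj (O1 W))).symm

/-- **Block B8**: `F(E(1))` is the spherical twist of `F(E)(1)` along `𝒪`. -/
theorem phiSt (hW : Hg 6 W) (hW0 : W ≠ 0) (hH : HomSt W) (hE : ExtSt W) {n : ℕ} (E E' : GMF W n)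
    (hp : ∀ i, E'.p i = E.p i - 2) (hd : E'.d = E.d) :
    IsTwist (OD W 0) ((twD W 1).obj (FD E)) (FD E') := by
  have h1 := Tw.IsTwist.map (qF W) (twist_K hW hW0 E') (bij_O hH hE E')
  obtain ⟨e⟩ := twSt W E E' 0 hp hd
  exact Tw.IsTwist.iso_right (Tw.IsTwist.iso_mid (Tw.IsTwist.iso_left h1 qFO)
    (qFiso _ ≪≫ e.symm)) (qFiso _)

end

end Vale.Agent.P287Z.O.L
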