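import Mathlib.CategoryTheory.Triangulated.Functor
import Mathlib.CategoryTheory.Linear.LinearFunctor
import Mathlib.CategoryTheory.Linear.Basic
import Mathlib.LinearAlgebra.Basis.Basic
import Mathlib.LinearAlgebra.Dimension.Free
import Mathlib.LinearAlgebra.FiniteDimensional.Basic
import Mathlib.CategoryTheory.Preadditive.Biproducts
import Mathlib.CategoryTheory.Limits.Preserves.Shapes.Biproducts
import Mathlib.Data.Complex.Basic

/-!
# Spherical twists: definition on objects, uniqueness, and a criterion (P287 port of P294-L, block B8)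
-/

open CategoryTheory Limits Pretriangulated

universe v u v' u'

namespace Vale.Agent.P287Z.O.L

section

variable {𝒟 : Type u} [Category.{v} 𝒟] [Preadditive 𝒟] [Linear ℂ 𝒟] [HasZeroObject 𝒟]
    [HasShift 𝒟 ℤ] [∀ n : ℤ, (shiftFunctor 𝒟 n).Additive] [Pretriangulated 𝒟]

/-- `Y` is a cone of the evaluation map `⊕_n Hom(O[n], E) ⊗ O[n] → E`: it is isomorphic to the
spherical twist `T_O(E)` -/
def IsTwist (O E Y : 𝒟) : Prop :=
  ∃ (s : Finset ℤ) (r : ℤ → ℕ) (b : ∀ n : ℤ, Module.Basis (Fin (r n)) ℂ (O⟦n⟧ ⟶ E)),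
    (∀ n, n ∉ s → r n = 0) ∧
    ∃ (g : E ⟶ Y) (h : Y ⟶ (⨁ fun x : (Σ n : s, Fin (r n)) => O⟦(x.1 : ℤ)⟧)⟦(1 : ℤ)⟧),
      Triangle.mk (biproduct.desc fun x : (Σ n : s, Fin (r n)) => b x.1 x.2) g h ∈ distTriang 𝒟

end

namespace Tw

section

variable {𝒟 : Type u} [Category.{v} 𝒟] [Preadditive 𝒟] [Linear ℂ 𝒟] [HasZeroObject 𝒟]
    [HasShift 𝒟 ℤ] [∀ n : ℤ, (shiftFunctor 𝒟 n).Additive] [Pretriangulated 𝒟]
    {O E Y Y' : 𝒟}

/-- the source of the evaluation -/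
noncomputable abbrev PP (O : 𝒟) (s : Finset ℤ) (r : ℤ → ℕ) : 𝒟 :=
  ⨁ fun x : (Σ n : s, Fin (r n)) => O⟦(x.1 : ℤ)⟧

variable (s : Finset ℤ) (r : ℤ → ℕ) (b : ∀ n : ℤ, Module.Basis (Fin (r n)) ℂ (O⟦n⟧ ⟶ E))

/-- the evaluation -/
noncomputable abbrev ev : PP O s r ⟶ E := biproduct.desc fun x : (Σ n : s, Fin (r n)) => b x.1 x.2

/-- the section of the evaluation -/
noncomputable def LL (n : ℤ) : (O⟦n⟧ ⟶ E) →ₗ[ℂ] (O⟦n⟧ ⟶ PP O s r) :=
  (b n).constr ℂ fun j => if h : n ∈ s then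
    biproduct.ι (fun x : (Σ n : s, Fin (r n)) => O⟦(x.1 : ℤ)⟧) ⟨⟨n, h⟩, j⟩ else 0

theorem LL_basis (n : ℤ) (h : n ∈ s) (j : Fin (r n)) : LL s r b n (b n j) =
    biproduct.ι (fun x : (Σ n : s, Fin (r n)) => O⟦(x.1 : ℤ)⟧) ⟨⟨n, h⟩, j⟩ := by
  rw [LL, Module.Basis.constr_basis, dif_pos h]

variable {s r}

theorem mem_of_fin (hs : ∀ n, n ∉ s → r n = 0) {n : ℤ} (j : Fin (r n)) : n ∈ s := by
  by_contra h
  have := hs n h
  rw [this] at j
  exact j.elim0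

theorem LL_ev (hs : ∀ n, n ∉ s → r n = 0) (n : ℤ) (f : O⟦n⟧ ⟶ E) :
    LL s r b n f ≫ ev s r b = f := by
  have h : (Linear.rightComp ℂ (O⟦n⟧) (ev s r b)).comp (LL s r b n) = LinearMap.id := by
    refine (b n).ext fun j => ?_
    have hn := mem_of_fin hs j
    rw [LinearMap.comp_apply, LL_basis s r b n hn j, LinearMap.id_apply]
    change biproduct.ι _ _ ≫ biproduct.desc _ = _
    rw [biproduct.ι_desc]
  exact LinearMap.congr_fun h f

theorem exists_iso {s' : Finset ℤ} {r' : ℤ → ℕ}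
    {b' : ∀ n : ℤ, Module.Basis (Fin (r' n)) ℂ (O⟦n⟧ ⟶ E)}
    (hs : ∀ n, n ∉ s → r n = 0) (hs' : ∀ n, n ∉ s' → r' n = 0) :
    ∃ e : PP O s r ≅ PP O s' r', e.hom ≫ ev s' r' b' = ev s r b := by
  have key : ∀ {s s' : Finset ℤ} {r r' : ℤ → ℕ}
      (b : ∀ n : ℤ, Module.Basis (Fin (r n)) ℂ (O⟦n⟧ ⟶ E))
      (b' : ∀ n : ℤ, Module.Basis (Fin (r' n)) ℂ (O⟦n⟧ ⟶ E))
      (hs : ∀ n, n ∉ s → r n = 0) (hs' : ∀ n, n ∉ s' → r' n = 0),
      (biproduct.desc fun x : (Σ n : s, Fin (r n)) => LL s' r' b' x.1 (b x.1 x.2)) ≫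
        (biproduct.desc fun x : (Σ n : s', Fin (r' n)) => LL s r b x.1 (b' x.1 x.2)) =
          𝟙 (PP O s r) := by
    intro s s' r r' b b' hs hs'
    set β : PP O s' r' ⟶ PP O s r :=
      (biproduct.desc fun x : (Σ n : s', Fin (r' n)) => LL s r b x.1 (b' x.1 x.2)) with hβ
    have h1 : ∀ (n : ℤ) (f : O⟦n⟧ ⟶ E), LL s' r' b' n f ≫ β = LL s r b n f := by
      intro n f
      have h : (Linear.rightComp ℂ (O⟦n⟧) β).comp (LL s' r' b' n) = LL s r b n := by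
        refine (b' n).ext fun j => ?_
        have hn := mem_of_fin hs' j
        rw [LinearMap.comp_apply, LL_basis s' r' b' n hn j]
        change biproduct.ι _ _ ≫ β = _
        rw [hβ, biproduct.ι_desc]
      exact LinearMap.congr_fun h f
    refine biproduct.hom_ext' _ _ fun x => ?_
    rw [← Category.assoc, biproduct.ι_desc, h1, LL_basis s r b x.1 x.1.2 x.2, Category.comp_id]
  refine ⟨⟨_, _, key b b' hs hs', key b' b hs' hs⟩, ?_⟩
  refine biproduct.hom_ext' _ _ fun x => ?_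
  dsimp only
  rw [← Category.assoc, biproduct.ι_desc, LL_ev b' hs', biproduct.ι_desc]

/-- the twist is unique up to isomorphism -/
theorem IsTwist.unique (h : IsTwist O E Y) (h' : IsTwist O E Y') : Nonempty (Y ≅ Y') := by
  obtain ⟨s, r, b, hs, g, k, hT⟩ := h
  obtain ⟨s', r', b', hs', g', k', hT'⟩ := h'
  obtain ⟨e, he⟩ := exists_iso (b := b) (b' := b') hs hs'
  exact ⟨Triangle.π₃.mapIso (isoTriangleOfIso₁₂ _ _ hT hT' e (Iso.refl _)
    (by change ev s r b ≫ 𝟙 _ = e.hom ≫ ev s' r' b'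
        rw [he, Category.comp_id]))⟩

omit [Linear ℂ 𝒟] in
theorem dist_of_iso {X Y Z X' Y' Z' : 𝒟} {f : X ⟶ Y} {g : Y ⟶ Z} {h : Z ⟶ X⟦(1 : ℤ)⟧}
    {f' : X' ⟶ Y'} {g' : Y' ⟶ Z'} {h' : Z' ⟶ X'⟦(1 : ℤ)⟧}
    (hT : Triangle.mk f g h ∈ distTriang 𝒟) (e1 : X' ≅ X) (e2 : Y' ≅ Y) (e3 : Z' ≅ Z)
    (h1 : f' ≫ e2.hom = e1.hom ≫ f) (h2 : g' ≫ e3.hom = e2.hom ≫ g)
    (h3 : h' ≫ (shiftFunctor 𝒟 (1 : ℤ)).map e1.hom = e3.hom ≫ h) :
    Triangle.mk f' g' h' ∈ distTriang 𝒟 :=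
  isomorphic_distinguished _ hT _ (Triangle.isoMk _ _ e1 e2 e3 h1 h2 h3)

theorem IsTwist.iso_right (h : IsTwist O E Y) (e : Y ≅ Y') : IsTwist O E Y' := by
  obtain ⟨s, r, b, hs, g, k, hT⟩ := h
  refine ⟨s, r, b, hs, g ≫ e.hom, e.inv ≫ k,
    dist_of_iso hT (Iso.refl _) (Iso.refl _) e.symm ?_ ?_ ?_⟩
  · rw [Iso.refl_hom, Iso.refl_hom, Category.comp_id, Category.id_comp]
  · rw [Iso.refl_hom, Iso.symm_hom, Category.assoc, e.hom_inv_id, Category.comp_id,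
      Category.id_comp]
  · rw [Iso.refl_hom, Iso.symm_hom, CategoryTheory.Functor.map_id, Category.comp_id]

theorem IsTwist.iso_mid {E' : 𝒟} (h : IsTwist O E Y) (e : E ≅ E') : IsTwist O E' Y := by
  obtain ⟨s, r, b, hs, g, k, hT⟩ := h
  refine ⟨s, r, fun n => (b n).map (Linear.homCongr ℂ (Iso.refl _) e), hs, e.inv ≫ g, k,
    dist_of_iso hT (Iso.refl _) e.symm (Iso.refl _) ?_ ?_ ?_⟩
  · rw [Iso.refl_hom, Category.id_comp]
    refine biproduct.hom_ext' _ _ fun x => ?_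
    rw [← Category.assoc, biproduct.ι_desc, biproduct.ι_desc, Module.Basis.map_apply]
    rw [Linear.homCongr_apply, Iso.refl_inv, Category.id_comp, Iso.symm_hom, Category.assoc,
      e.hom_inv_id, Category.comp_id]
  · rw [Iso.refl_hom, Iso.symm_hom, Category.comp_id]
  · rw [Iso.refl_hom, Iso.refl_hom, CategoryTheory.Functor.map_id, Category.comp_id,
      Category.id_comp]

theorem IsTwist.iso_left {O' : 𝒟} (h : IsTwist O E Y) (e : O ≅ O') : IsTwist O' E Y := by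
  obtain ⟨s, r, b, hs, g, k, hT⟩ := h
  let e1 : PP O' s r ≅ PP O s r :=
    biproduct.mapIso fun x => (shiftFunctor 𝒟 (x.1 : ℤ)).mapIso e.symm
  refine ⟨s, r, fun n => (b n).map (Linear.homCongr ℂ ((shiftFunctor 𝒟 n).mapIso e)
    (Iso.refl _)), hs, g, k ≫ (shiftFunctor 𝒟 (1 : ℤ)).map e1.inv,
    dist_of_iso hT e1 (Iso.refl _) (Iso.refl _) ?_ ?_ ?_⟩
  · rw [Iso.refl_hom, Category.comp_id]
    refine biproduct.hom_ext' _ _ fun x => ?_
    rw [biproduct.ι_desc, Module.Basis.map_apply, Linear.homCongr_apply, Iso.refl_hom,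
      Category.comp_id, biproduct.mapIso_hom, biproduct.ι_map_assoc, biproduct.ι_desc]
    rfl
  · rw [Iso.refl_hom, Iso.refl_hom, Category.comp_id, Category.id_comp]
  · rw [Iso.refl_hom, Category.id_comp, Category.assoc, ← Functor.map_comp, e1.inv_hom_id,
      CategoryTheory.Functor.map_id, Category.comp_id]

end

/-! ### the criterion -/

section

variable {K : Type u} [Category.{v} K] [Preadditive K] [HasZeroObject K]
    [HasShift K ℤ] [∀ n : ℤ, (shiftFunctor K n).Additive] [Pretriangulated K]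

/-- extensions of shifts of `A` -/
inductive Hull (A : K) : K → Prop
  | base (n : ℤ) : Hull A (A⟦n⟧)
  | zero (X : K) : IsZero X → Hull A X
  | iso {X Y : K} : (X ≅ Y) → Hull A X → Hull A Y
  | ext (T : Triangle K) : T ∈ distTriang K → Hull A T.obj₁ → Hull A T.obj₃ → Hull A T.obj₂

theorem Hull.shift {A X : K} (h : Hull A X) (m : ℤ) : Hull A (X⟦m⟧) := by
  induction h with
  | base n => exact .iso ((shiftFunctorAdd K n m).app A) (.base (n + m))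
  | zero X hX => exact .zero _ ((shiftFunctor K m).map_isZero hX)
  | iso e _ ih => exact .iso ((shiftFunctor K m).mapIso e) ih
  | ext T hT _ _ ih1 ih3 =>
    exact .ext ((Triangle.shiftFunctor K m).obj T) (T.shift_distinguished hT m) ih1 ih3

/-- all maps from shifts of `A` to `Z` vanish: so do all maps from the hull of `A` -/
theorem Hull.orth {A X Z : K} (h : Hull A X) (hZ : ∀ (n : ℤ) (f : A⟦n⟧ ⟶ Z), f = 0) :
    ∀ f : X ⟶ Z, f = 0 := by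
  induction h with
  | base n => exact hZ n
  | zero X hX => exact fun f => hX.eq_of_src _ _
  | iso e _ ih =>
    intro f
    rw [← cancel_epi e.hom, ih (e.hom ≫ f), comp_zero]
  | ext T hT _ _ ih1 ih3 =>
    intro f
    obtain ⟨g, hg⟩ := T.yoneda_exact₂ hT f (ih1 _)
    rw [hg, ih3 g, comp_zero]

/-- two localization triangles agree -/
theorem exists_iso_of_orth {P Q Y Z Z' : K} {u : P ⟶ Y} {g : Y ⟶ Z} {h : Z ⟶ P⟦(1 : ℤ)⟧}
    {u' : Q ⟶ Y} {g' : Y ⟶ Z'} {h' : Z' ⟶ Q⟦(1 : ℤ)⟧}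
    (hT : Triangle.mk u g h ∈ distTriang K) (hT' : Triangle.mk u' g' h' ∈ distTriang K)
    (h1 : ∀ f : P ⟶ Z', f = 0) (h2 : ∀ f : Q ⟶ Z, f = 0) (h3 : ∀ f : P⟦(1 : ℤ)⟧ ⟶ Z, f = 0)
    (h4 : ∀ f : Q⟦(1 : ℤ)⟧ ⟶ Z', f = 0) : ∃ e : Z ≅ Z', g ≫ e.hom = g' := by
  obtain ⟨a, ha⟩ : ∃ a : Z ⟶ Z', g' = g ≫ a := Triangle.yoneda_exact₂ _ hT g' (h1 _)
  obtain ⟨b, hb⟩ : ∃ b : Z' ⟶ Z, g = g' ≫ b := Triangle.yoneda_exact₂ _ hT' g (h2 _)
  refine ⟨⟨a, b, ?_, ?_⟩, ha.symm⟩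
  · have h0 : g ≫ (a ≫ b - 𝟙 Z) = 0 := by
      rw [Preadditive.comp_sub, ← Category.assoc, ← ha, ← hb, Category.comp_id, sub_self]
    obtain ⟨c, hc⟩ : ∃ c : P⟦(1 : ℤ)⟧ ⟶ Z, a ≫ b - 𝟙 Z = h ≫ c :=
      Triangle.yoneda_exact₃ _ hT _ h0
    rw [h3 c, comp_zero, sub_eq_zero] at hc
    exact hc
  · have h0 : g' ≫ (b ≫ a - 𝟙 Z') = 0 := by
      rw [Preadditive.comp_sub, ← Category.assoc, ← hb, ← ha, Category.comp_id, sub_self]
    obtain ⟨c, hc⟩ : ∃ c : Q⟦(1 : ℤ)⟧ ⟶ Z', b ≫ a - 𝟙 Z' = h' ≫ c :=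
      Triangle.yoneda_exact₃ _ hT' _ h0
    rw [h4 c, comp_zero, sub_eq_zero] at hc
    exact hc

end

section

variable {K : Type u} [Category.{v} K] [Preadditive K] [Linear ℂ K] [HasZeroObject K]
    [HasShift K ℤ] [∀ n : ℤ, (shiftFunctor K n).Additive] [Pretriangulated K]
    [∀ n : ℤ, (shiftFunctor K n).Linear ℂ]

/-- hypotheses on the object `A` -/
structure Exc (A : K) : Prop where
  van : ∀ n : ℤ, n ≠ 0 → ∀ f : A ⟶ A⟦n⟧, f = 0
  one : ∀ f : A ⟶ A, ∃ c : ℂ, f = c • 𝟙 A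

omit [Linear ℂ K] [HasZeroObject K] [Pretriangulated K] [∀ n : ℤ, (shiftFunctor K n).Linear ℂ] in
theorem shift_van {A : K} (h : ∀ n : ℤ, n ≠ 0 → ∀ f : A ⟶ A⟦n⟧, f = 0) (n m : ℤ) (hnm : n ≠ m)
    (f : A⟦n⟧ ⟶ A⟦m⟧) : f = 0 := by
  have e : A⟦m⟧ ≅ (A⟦m - n⟧)⟦n⟧ := (shiftFunctorAdd' K (m - n) n m (by ring)).app A
  have h1 : (shiftFunctor K n).preimage (f ≫ e.hom) = 0 := h _ (sub_ne_zero.2 hnm.symm) _
  have h2 : f ≫ e.hom = 0 := by
    rw [← (shiftFunctor K n).map_preimage (f ≫ e.hom), h1, Functor.map_zero]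
  rw [← cancel_mono e.hom, h2, zero_comp]

omit [HasZeroObject K] [∀ n : ℤ, (shiftFunctor K n).Additive] [Pretriangulated K] in
theorem shift_one {A : K} (h : ∀ f : A ⟶ A, ∃ c : ℂ, f = c • 𝟙 A) (n : ℤ)
    (f : A⟦n⟧ ⟶ A⟦n⟧) : ∃ c : ℂ, f = c • 𝟙 _ := by
  obtain ⟨c, hc⟩ := h ((shiftFunctor K n).preimage f)
  refine ⟨c, ?_⟩
  rw [← (shiftFunctor K n).map_preimage f, hc, Functor.map_smul, CategoryTheory.Functor.map_id]

/-- finite total Hom from `A` -/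
structure FT (A X : K) : Prop where
  fin : ∀ n : ℤ, Module.Finite ℂ (A⟦n⟧ ⟶ X)
  supp : ∃ s : Finset ℤ, ∀ n ∉ s, ∀ f : A⟦n⟧ ⟶ X, f = 0

/-- finiteness of the middle term of an exact sequence -/
theorem fin_mid {M N P : Type*} [AddCommGroup M] [Module ℂ M] [AddCommGroup N] [Module ℂ N]
    [AddCommGroup P] [Module ℂ P] (f : M →ₗ[ℂ] N) (g : N →ₗ[ℂ] P)
    (h : ∀ x, g x = 0 → ∃ y, f y = x) [Module.Finite ℂ M] [Module.Finite ℂ P] :
    Module.Finite ℂ N := by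
  have h1 : Module.Finite ℂ (LinearMap.ker g) := by
    have h2 : LinearMap.ker g ≤ LinearMap.range f := fun x hx => h x hx
    exact Submodule.finiteDimensional_of_le h2
  have h3 : Module.Finite ℂ (N ⧸ LinearMap.ker g) :=
    Module.Finite.equiv g.quotKerEquivRange.symm
  exact Module.Finite.of_submodule_quotient (LinearMap.ker g)

omit [∀ n : ℤ, (shiftFunctor K n).Linear ℂ] in
theorem FT.mid {A : K} (T : Triangle K) (hT : T ∈ distTriang K) (h1 : FT A T.obj₁)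
    (h3 : FT A T.obj₃) : FT A T.obj₂ where
  fin n := by
    have := h1.fin n
    have := h3.fin n
    refine fin_mid (Linear.rightComp ℂ (A⟦n⟧) T.mor₁) (Linear.rightComp ℂ (A⟦n⟧) T.mor₂) ?_
    intro x hx
    obtain ⟨y, hy⟩ := T.coyoneda_exact₂ hT x hx
    exact ⟨y, hy.symm⟩
  supp := by
    obtain ⟨s1, hs1⟩ := h1.supp
    obtain ⟨s3, hs3⟩ := h3.supp
    refine ⟨s1 ∪ s3, fun n hn f => ?_⟩
    rw [Finset.notMem_union] at hn
    obtain ⟨y, hy⟩ := T.coyoneda_exact₂ hT f (hs3 n hn.2 _)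
    rw [hy, hs1 n hn.1 y, zero_comp]

theorem Hull.ft {A X : K} (hA : Exc A) (h : Hull A X) : FT A X := by
  induction h with
  | base m =>
    constructor
    · intro n
      by_cases hnm : n = m
      · subst hnm
        refine Module.Finite.of_surjective (LinearMap.toSpanSingleton ℂ _ (𝟙 (A⟦n⟧))) ?_
        intro f
        obtain ⟨c, hc⟩ := shift_one hA.one n f
        exact ⟨c, hc.symm⟩
      · have : Subsingleton (A⟦n⟧ ⟶ A⟦m⟧) :=
          ⟨fun f g => by rw [shift_van hA.van n m hnm f, shift_van hA.van n m hnm g]⟩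
        infer_instance
    · refine ⟨{m}, fun n hn f => shift_van hA.van n m ?_ f⟩
      rwa [Finset.mem_singleton] at hn
  | zero X hX =>
    constructor
    · intro n
      have : Subsingleton (A⟦n⟧ ⟶ X) := ⟨fun f g => hX.eq_of_tgt _ _⟩
      infer_instance
    · exact ⟨∅, fun n _ f => hX.eq_of_tgt _ _⟩
  | iso e _ ih =>
    constructor
    · intro n
      have := ih.fin n
      exact Module.Finite.equiv (Linear.homCongr ℂ (Iso.refl (A⟦n⟧)) e)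
    · obtain ⟨s, hs⟩ := ih.supp
      refine ⟨s, fun n hn f => ?_⟩
      rw [← cancel_mono e.inv, hs n hn (f ≫ e.inv), zero_comp]
  | ext T hT _ _ ih1 ih3 => exact FT.mid T hT ih1 ih3

/-- the maps from shifts of `A` to the source of the evaluation -/
theorem range_LL {A Y : K} (hA : Exc A) {s : Finset ℤ} {r : ℤ → ℕ}
    (b : ∀ n : ℤ, Module.Basis (Fin (r n)) ℂ (A⟦n⟧ ⟶ Y)) (n : ℤ) (g : A⟦n⟧ ⟶ PP A s r) :
    ∃ v, LL s r b n v = g := by
  have h1 : ∀ x : (Σ n : s, Fin (r n)), ∃ v, LL s r b n v = (g ≫ biproduct.π _ x) ≫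
      biproduct.ι (fun x : (Σ n : s, Fin (r n)) => A⟦(x.1 : ℤ)⟧) x := by
    rintro ⟨⟨m, hm⟩, j⟩
    by_cases hnm : n = m
    · subst hnm
      obtain ⟨c, hc⟩ := shift_one hA.one n
        (g ≫ biproduct.π (fun x : (Σ n : s, Fin (r n)) => A⟦(x.1 : ℤ)⟧) ⟨⟨n, hm⟩, j⟩)
      refine ⟨c • b n j, ?_⟩
      rw [map_smul, LL_basis s r b n hm j, hc, Linear.smul_comp, Category.id_comp]
    · refine ⟨0, ?_⟩
      have h2 : g ≫ biproduct.π (fun x : (Σ n : s, Fin (r n)) => A⟦(x.1 : ℤ)⟧) ⟨⟨m, hm⟩, j⟩ = 0 :=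
        shift_van hA.van n m hnm _
      rw [h2, zero_comp, map_zero]
  choose v hv using h1
  refine ⟨∑ x, v x, ?_⟩
  rw [map_sum]
  calc ∑ x, LL s r b n (v x) = ∑ x, (g ≫ biproduct.π _ x) ≫
        biproduct.ι (fun x : (Σ n : s, Fin (r n)) => A⟦(x.1 : ℤ)⟧) x :=
        Finset.sum_congr rfl fun x _ => hv x
    _ = g ≫ ∑ x, biproduct.π _ x ≫
        biproduct.ι (fun x : (Σ n : s, Fin (r n)) => A⟦(x.1 : ℤ)⟧) x := by
        rw [Preadditive.comp_sum]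
        exact Finset.sum_congr rfl fun x _ => Category.assoc _ _ _
    _ = g := by rw [biproduct.total, Category.comp_id]

theorem ev_inj {A Y : K} (hA : Exc A) {s : Finset ℤ} {r : ℤ → ℕ}
    (b : ∀ n : ℤ, Module.Basis (Fin (r n)) ℂ (A⟦n⟧ ⟶ Y)) (hs : ∀ n, n ∉ s → r n = 0) (n : ℤ)
    (g : A⟦n⟧ ⟶ PP A s r) (hg : g ≫ ev s r b = 0) : g = 0 := by
  obtain ⟨v, rfl⟩ := range_LL hA b n g
  rw [LL_ev b hs] at hg
  rw [hg, map_zero]

/-- the cone of the evaluation is orthogonal to `A` -/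
theorem cone_orth {A Y Z : K} (hA : Exc A) {s : Finset ℤ} {r : ℤ → ℕ}
    (b : ∀ n : ℤ, Module.Basis (Fin (r n)) ℂ (A⟦n⟧ ⟶ Y)) (hs : ∀ n, n ∉ s → r n = 0)
    {g : Y ⟶ Z} {h : Z ⟶ (PP A s r)⟦(1 : ℤ)⟧} (hT : Triangle.mk (ev s r b) g h ∈ distTriang K)
    (n : ℤ) (f : A⟦n⟧ ⟶ Z) : f = 0 := by
  -- `f ≫ h = 0`
  have h1 : f ≫ h = 0 := by
    let e : (A⟦n - 1⟧)⟦(1 : ℤ)⟧ ≅ A⟦n⟧ := ((shiftFunctorAdd' K (n - 1) 1 n (by ring)).app A).symm
    have h2 : (e.hom ≫ f ≫ h) ≫ (shiftFunctor K (1 : ℤ)).map (ev s r b) = 0 := by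
      have h3 : h ≫ (shiftFunctor K (1 : ℤ)).map (ev s r b) = 0 :=
        comp_distTriang_mor_zero₃₁ _ hT
      rw [Category.assoc, Category.assoc, h3, comp_zero, comp_zero]
    have h4 : (shiftFunctor K (1 : ℤ)).preimage (e.hom ≫ f ≫ h) = 0 := by
      refine ev_inj hA b hs _ _ ((shiftFunctor K (1 : ℤ)).map_injective ?_)
      rw [Functor.map_comp, Functor.map_preimage, h2, Functor.map_zero]
    have h5 : e.hom ≫ f ≫ h = 0 := by
      rw [← (shiftFunctor K (1 : ℤ)).map_preimage (e.hom ≫ f ≫ h), h4, Functor.map_zero]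
    rw [← cancel_epi e.hom, h5, comp_zero]
  obtain ⟨a, ha⟩ : ∃ a : A⟦n⟧ ⟶ Y, f = a ≫ g := Triangle.coyoneda_exact₃ _ hT f h1
  have h6 : ev s r b ≫ g = 0 := comp_distTriang_mor_zero₁₂ _ hT
  rw [ha, ← LL_ev b hs n a, Category.assoc, h6, comp_zero]

/-- **Criterion** for twists. -/
theorem IsTwist.of_hull {A Q Y Z : K} (hA : Exc A) {w : Q ⟶ Y} {g : Y ⟶ Z} {h : Z ⟶ Q⟦(1 : ℤ)⟧}
    (hT : Triangle.mk w g h ∈ distTriang K) (hQ : Hull A Q)
    (hZ : ∀ (n : ℤ) (f : A⟦n⟧ ⟶ Z), f = 0) : IsTwist A Y Z := by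
  have hsub : ∀ n : ℤ, Subsingleton (A⟦n⟧ ⟶ Z) := fun n => ⟨fun f g => by rw [hZ n f, hZ n g]⟩
  have h3 : FT A Z := ⟨fun n => by have := hsub n; infer_instance, ⟨∅, fun n _ f => hZ n f⟩⟩
  have h2 : FT A Y := FT.mid (Triangle.mk w g h) hT (hQ.ft hA) h3
  obtain ⟨s, hs⟩ := h2.supp
  have hfin := h2.fin
  let r : ℤ → ℕ := fun n => Module.finrank ℂ (A⟦n⟧ ⟶ Y)
  let b : ∀ n : ℤ, Module.Basis (Fin (r n)) ℂ (A⟦n⟧ ⟶ Y) := fun n => Module.finBasis ℂ _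
  have hr : ∀ n, n ∉ s → r n = 0 := by
    intro n hn
    have : Subsingleton (A⟦n⟧ ⟶ Y) := ⟨fun f g => by rw [hs n hn f, hs n hn g]⟩
    exact Module.finrank_zero_of_subsingleton
  obtain ⟨Z', g', h', hT'⟩ := distinguished_cocone_triangle (ev s r b)
  have hZ' : ∀ (n : ℤ) (f : A⟦n⟧ ⟶ Z'), f = 0 := cone_orth hA b hr hT'
  have hP : ∀ {Z : K}, (∀ (n : ℤ) (f : A⟦n⟧ ⟶ Z), f = 0) → ∀ f : PP A s r ⟶ Z, f = 0 := by
    intro Z hZ f
    refine biproduct.hom_ext' _ _ fun x => ?_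
    rw [comp_zero]
    exact hZ _ _
  have hP1 : ∀ {Z : K}, (∀ (n : ℤ) (f : A⟦n⟧ ⟶ Z), f = 0) →
      ∀ f : (PP A s r)⟦(1 : ℤ)⟧ ⟶ Z, f = 0 := by
    intro Z hZ f
    let e : Z ≅ (Z⟦(-1 : ℤ)⟧)⟦(1 : ℤ)⟧ :=
      (shiftFunctorZero K ℤ).symm.app Z ≪≫ (shiftFunctorAdd' K (-1) 1 0 (by norm_num)).app Z
    have h1 : ∀ (n : ℤ) (f : A⟦n⟧ ⟶ Z⟦(-1 : ℤ)⟧), f = 0 := by
      intro n f
      apply (shiftFunctor K (1 : ℤ)).map_injective
      rw [Functor.map_zero, ← cancel_mono e.inv, ← cancel_epi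
        ((shiftFunctorAdd' K n 1 (n + 1) rfl).app A).hom, zero_comp, comp_zero]
      exact hZ _ _
    have h2 : (shiftFunctor K (1 : ℤ)).preimage (f ≫ e.hom) = 0 := hP h1 _
    rw [← cancel_mono e.hom, ← (shiftFunctor K (1 : ℤ)).map_preimage (f ≫ e.hom), h2,
      Functor.map_zero, zero_comp]
  obtain ⟨e, he⟩ := exists_iso_of_orth hT' hT (hP hZ) (hQ.orth hZ') (hP1 hZ')
    ((hQ.shift 1).orth hZ)
  refine ⟨s, r, b, hr, g, e.inv ≫ h', dist_of_iso hT' (Iso.refl _) (Iso.refl _) e.symm ?_ ?_ ?_⟩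
  · rw [Iso.refl_hom, Iso.refl_hom, Category.comp_id, Category.id_comp]
  · rw [Iso.refl_hom, Iso.symm_hom, ← he, Category.assoc, e.hom_inv_id, Category.comp_id,
      Category.id_comp]
  · rw [Iso.refl_hom, Iso.symm_hom, CategoryTheory.Functor.map_id, Category.comp_id]

end

/-! ### images under functors -/

section

variable {K : Type u} [Category.{v} K] [Preadditive K] [Linear ℂ K] [HasZeroObject K]
    [HasShift K ℤ] [∀ n : ℤ, (shiftFunctor K n).Additive] [Pretriangulated K]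
    {𝒟 : Type u'} [Category.{v'} 𝒟] [Preadditive 𝒟] [Linear ℂ 𝒟] [HasZeroObject 𝒟]
    [HasShift 𝒟 ℤ] [∀ n : ℤ, (shiftFunctor 𝒟 n).Additive] [Pretriangulated 𝒟]
    (F : K ⥤ 𝒟) [F.CommShift ℤ] [F.IsTriangulated] [F.Additive] [F.Linear ℂ]

/-- the comparison of Hom spaces -/
noncomputable def homE {A Y : K} (n : ℤ)
    (hb : Function.Bijective (fun f : A⟦n⟧ ⟶ Y => F.map f)) :
    (A⟦n⟧ ⟶ Y) ≃ₗ[ℂ] ((F.obj A)⟦n⟧ ⟶ F.obj Y) :=
  (LinearEquiv.ofBijective (F.mapLinearMap ℂ) hb).trans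
    (Linear.homCongr ℂ ((F.commShiftIso n).app A) (Iso.refl _))

omit [HasZeroObject K] [∀ n : ℤ, (shiftFunctor K n).Additive] [Pretriangulated K]
  [HasZeroObject 𝒟] [∀ n : ℤ, (shiftFunctor 𝒟 n).Additive] [Pretriangulated 𝒟]
  [F.IsTriangulated] in
theorem homE_apply {A Y : K} (n : ℤ) (hb : Function.Bijective (fun f : A⟦n⟧ ⟶ Y => F.map f))
    (f : A⟦n⟧ ⟶ Y) : homE F n hb f = (F.commShiftIso n).inv.app A ≫ F.map f := by
  change ((F.commShiftIso n).inv.app A ≫ F.map f) ≫ 𝟙 _ = _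
  rw [Category.comp_id]

/-- comparison of the sources of the evaluation -/
noncomputable def thE (A : K) (s : Finset ℤ) (r : ℤ → ℕ) :
    PP (F.obj A) s r ≅ F.obj (PP A s r) :=
  biproduct.mapIso (fun x : (Σ n : s, Fin (r n)) => ((F.commShiftIso (x.1 : ℤ)).app A).symm) ≪≫
    (F.mapBiproduct (fun x : (Σ n : s, Fin (r n)) => A⟦(x.1 : ℤ)⟧)).symm

omit [Linear ℂ K] [Linear ℂ 𝒟] [F.Linear ℂ] in
theorem thE_ev {A Y : K} (s : Finset ℤ) (r : ℤ → ℕ) (u : ∀ x : (Σ n : s, Fin (r n)),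
    A⟦(x.1 : ℤ)⟧ ⟶ Y) : (thE F A s r).hom ≫ F.map (biproduct.desc u) =
      biproduct.desc fun x => (F.commShiftIso (x.1 : ℤ)).inv.app A ≫ F.map (u x) := by
  rw [thE, Iso.trans_hom, Iso.symm_hom, Category.assoc, biproduct.mapBiproduct_inv_map_desc]
  refine biproduct.hom_ext' _ _ fun x => ?_
  rw [biproduct.mapIso_hom, biproduct.ι_map_assoc, biproduct.ι_desc, biproduct.ι_desc]
  rfl

omit [Linear ℂ K] [Linear ℂ 𝒟] [F.Additive] [F.Linear ℂ] in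
theorem map_dist {X Y Z : K} {f : X ⟶ Y} {g : Y ⟶ Z} {h : Z ⟶ X⟦(1 : ℤ)⟧}
    (hT : Triangle.mk f g h ∈ distTriang K) :
    Triangle.mk (F.map f) (F.map g) (F.map h ≫ (F.commShiftIso (1 : ℤ)).hom.app X) ∈
      distTriang 𝒟 := F.map_distinguished _ hT

omit [Linear ℂ K] [Linear ℂ 𝒟] [F.Additive] [F.Linear ℂ] in
theorem of_map_dist [F.Full] [F.Faithful] {X Y Z : K} {f : X ⟶ Y} {g : Y ⟶ Z}
    {h : Z ⟶ X⟦(1 : ℤ)⟧} (hT : Triangle.mk (F.map f) (F.map g)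
      (F.map h ≫ (F.commShiftIso (1 : ℤ)).hom.app X) ∈ distTriang 𝒟) :
    Triangle.mk f g h ∈ distTriang K := (F.map_distinguished_iff _).1 hT

theorem IsTwist.map {A Y Z : K} (h : IsTwist A Y Z)
    (hb : ∀ n : ℤ, Function.Bijective (fun f : A⟦n⟧ ⟶ Y => F.map f)) :
    IsTwist (F.obj A) (F.obj Y) (F.obj Z) := by
  obtain ⟨s, r, b, hs, g, h, hT⟩ := h
  refine ⟨s, r, fun n => (b n).map (homE F n (hb n)), hs, F.map g,
    (F.map h ≫ (F.commShiftIso (1 : ℤ)).hom.app _) ≫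
      (shiftFunctor 𝒟 (1 : ℤ)).map (thE F A s r).inv,
    dist_of_iso (map_dist F hT) (thE F A s r) (Iso.refl _) (Iso.refl _) ?_ ?_ ?_⟩
  · rw [Iso.refl_hom, Category.comp_id, thE_ev F s r fun x => b x.1 x.2]
    refine biproduct.hom_ext' _ _ fun x => ?_
    rw [biproduct.ι_desc, biproduct.ι_desc, Module.Basis.map_apply, homE_apply]
  · rw [Iso.refl_hom, Iso.refl_hom, Category.comp_id, Category.id_comp]
  · rw [Iso.refl_hom, Category.id_comp, Category.assoc, ← Functor.map_comp, Iso.inv_hom_id,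
      CategoryTheory.Functor.map_id]
    exact Category.comp_id _

theorem IsTwist.of_map [F.Full] [F.Faithful] {A Y Z : K}
    (h : IsTwist (F.obj A) (F.obj Y) (F.obj Z)) : IsTwist A Y Z := by
  have hb : ∀ n : ℤ, Function.Bijective (fun f : A⟦n⟧ ⟶ Y => F.map f) :=
    fun n => ⟨F.map_injective, F.map_surjective⟩
  obtain ⟨s, r, b, hs, g, h, hT⟩ := h
  let k : F.obj Z ⟶ F.obj ((PP A s r)⟦(1 : ℤ)⟧) :=
    h ≫ (shiftFunctor 𝒟 (1 : ℤ)).map (thE F A s r).hom ≫ (F.commShiftIso (1 : ℤ)).inv.app _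
  refine ⟨s, r, fun n => (b n).map (homE F n (hb n)).symm, hs, F.preimage g, F.preimage k, ?_⟩
  refine of_map_dist F (dist_of_iso hT (thE F A s r).symm (Iso.refl _) (Iso.refl _) ?_ ?_ ?_)
  · rw [Iso.refl_hom, Iso.symm_hom, Category.comp_id, ← cancel_epi (thE F A s r).hom,
      Iso.hom_inv_id_assoc, thE_ev F s r]
    refine biproduct.hom_ext' _ _ fun x => ?_
    rw [biproduct.ι_desc, biproduct.ι_desc, Module.Basis.map_apply, ← homE_apply F _ (hb _),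
      LinearEquiv.apply_symm_apply]
  · rw [Iso.refl_hom, Iso.refl_hom, Category.id_comp, Category.comp_id, F.map_preimage]
  · rw [Iso.refl_hom, Category.id_comp, Iso.symm_hom, F.map_preimage, Category.assoc,
      Category.assoc, Category.assoc, Iso.inv_hom_id_app_assoc, ← Functor.map_comp,
      Iso.hom_inv_id, CategoryTheory.Functor.map_id, Category.comp_id]

end

end Tw

end Vale.Agent.P287Z.O.L
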